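import Vale.Agent.P058.Main
import Vale.Agent.P058.NonSub

/-! Disproof of the Leader–Russell–Walters conjecture: every cyclic kite is Ramsey, but some
cyclic kites are not subtransitive. -/

namespace Vale.Agent.Results.P058.KiteRamsey

open Vale.Agent.P058

theorem result :
    (∀ t ℓ : ℝ, 0 < t → t < 1 → 0 < ℓ → IsRamsey (kite t ℓ)) ∧
    ¬ IsSubtransitive (kite (1 - 1 / √2) 1) ∧
    ¬ (∀ (d : ℕ) (A : Set (EuclideanSpace ℝ (Fin d))), A.Finite → A.Nonempty →
        (IsRamsey A ↔ IsSubtransitive A)) := by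
  have h1 : ∀ t ℓ : ℝ, 0 < t → t < 1 → 0 < ℓ → IsRamsey (kite t ℓ) :=
    fun t ℓ ht0 ht1 hℓ => kite_isRamsey t ℓ ht0 ht1 hℓ
  refine ⟨h1, kite_not_subtransitive, fun h => ?_⟩
  refine kite_not_subtransitive ((h 2 (kite (1 - 1 / √2) 1) ?_ ?_).1 (h1 _ _ ?_ ?_ one_pos))
  · rw [kite]; exact Set.toFinite _
  · exact ⟨_, Set.mem_insert _ _⟩
  · have : 1 < √2 := by
      rw [Real.lt_sqrt] <;> norm_num
    have h2 : 1 / √2 < 1 := by
      rw [div_lt_one (by positivity)]
      exact this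
    linarith
  · have : 0 < 1 / √2 := by positivity
    linarith

end Vale.Agent.Results.P058.KiteRamsey
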